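import Mathlib.Analysis.SpecialFunctions.Log.Basic
import Mathlib.Analysis.SpecificLimits.Normed
import Mathlib.Analysis.SpecificLimits.Basic
import Mathlib.Algebra.Order.Floor.Semiring
import Mathlib.Tactic

/-!
# P015, MIDDLE: numerics of the descent
-/

namespace Vale.Agent.P015.H416

open Finset Filter Topology

/-- number of primes per leaf at level `k` -/
noncomputable def nn (A : ℕ) (ρ : ℝ) (k : ℕ) : ℕ := ⌊ρ * (A : ℝ) ^ k / k⌋₊

theorem nn_le {A : ℕ} {ρ : ℝ} (hρ : 0 ≤ ρ) (k : ℕ) : (nn A ρ k : ℝ) ≤ ρ * (A : ℝ) ^ k / k :=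
  Nat.floor_le (by positivity)

theorem nn_mul_le {A : ℕ} {ρ : ℝ} (hρ : 0 ≤ ρ) {k : ℕ} (hk : 0 < k) :
    (nn A ρ k : ℝ) * k ≤ ρ * (A : ℝ) ^ k := by
  have hk' : (0 : ℝ) < k := by exact_mod_cast hk
  have := mul_le_mul_of_nonneg_right (nn_le (A := A) hρ k) hk'.le
  rwa [div_mul_cancel₀ _ hk'.ne'] at this

theorem le_nn_mul {A : ℕ} {ρ : ℝ} {k : ℕ} (hk : 0 < k) :
    ρ * (A : ℝ) ^ k - k ≤ (nn A ρ k : ℝ) * k := by
  have hk' : (0 : ℝ) < k := by exact_mod_cast hk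
  have h1 : ρ * (A : ℝ) ^ k / k - 1 ≤ (nn A ρ k : ℝ) := by
    have := Nat.lt_floor_add_one (ρ * (A : ℝ) ^ k / k)
    rw [nn]; linarith
  have := mul_le_mul_of_nonneg_right h1 hk'.le
  rw [sub_mul, div_mul_cancel₀ _ hk'.ne', one_mul] at this
  exact this

/-- powers beat polynomials -/
theorem ev_pow (A : ℕ) (hA : 2 ≤ A) (d : ℕ) (C : ℝ) : ∃ N : ℕ, ∀ k ≥ N,
    C * (k : ℝ) ^ d ≤ (A : ℝ) ^ k := by
  have h1 : Tendsto (fun n : ℕ => (n : ℝ) ^ d / (A : ℝ) ^ n) atTop (𝓝 0) :=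
    tendsto_pow_const_div_const_pow_of_one_lt d (by exact_mod_cast (by omega : 1 < A))
  have h2 : ∀ᶠ n : ℕ in atTop, (n : ℝ) ^ d / (A : ℝ) ^ n < 1 / (|C| + 1) :=
    h1.eventually (gt_mem_nhds (by positivity))
  obtain ⟨N, hN⟩ := eventually_atTop.1 h2
  refine ⟨N, fun k hk => ?_⟩
  have h3 := hN k hk
  have hAk : (0 : ℝ) < (A : ℝ) ^ k := by
    have : (0 : ℝ) < A := by exact_mod_cast (by omega : 0 < A)
    positivity
  rw [div_lt_div_iff₀ hAk (by positivity), one_mul] at h3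
  have h4 : C * (k : ℝ) ^ d ≤ (k : ℝ) ^ d * (|C| + 1) := by
    have h5 : C ≤ |C| + 1 := by have := le_abs_self C; linarith
    have h6 : (0 : ℝ) ≤ (k : ℝ) ^ d := by positivity
    nlinarith
  linarith

theorem log_floor_exp {z : ℝ} (hz : 0 ≤ z) : z - Real.log 2 ≤ Real.log (⌊Real.exp z⌋₊ : ℝ) := by
  have h1 : 1 ≤ Real.exp z := Real.one_le_exp hz
  have h2 : Real.exp z / 2 ≤ (⌊Real.exp z⌋₊ : ℝ) := by
    have h3 := Nat.lt_floor_add_one (Real.exp z)
    have h4 : (1 : ℝ) ≤ (⌊Real.exp z⌋₊ : ℝ) := by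
      exact_mod_cast Nat.le_floor (by simpa using h1)
    linarith
  have h5 := Real.log_le_log (by positivity) h2
  rw [Real.log_div (Real.exp_pos z).ne' two_ne_zero, Real.log_exp] at h5
  exact h5

theorem sum_geom_le {A : ℕ} (hA : 2 ≤ A) (k0 j : ℕ) :
    ∑ i ∈ range j, (A : ℝ) ^ (k0 + i) ≤ 2 * (A : ℝ) ^ (k0 + j) / A := by
  have hA' : (2 : ℝ) ≤ A := by exact_mod_cast hA
  have hA0 : (0 : ℝ) < A := by linarith
  induction j with
  | zero => simp; positivity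
  | succ j ih =>
    rw [Finset.sum_range_succ]
    have h1 : (2 : ℝ) * (A : ℝ) ^ (k0 + (j + 1)) / A = 2 * (A : ℝ) ^ (k0 + j) := by
      rw [← add_assoc, pow_succ]; field_simp
    rw [h1]
    have h2 : 2 * (A : ℝ) ^ (k0 + j) / A ≤ (A : ℝ) ^ (k0 + j) := by
      rw [div_le_iff₀ hA0]
      have : (0 : ℝ) < (A : ℝ) ^ (k0 + j) := by positivity
      nlinarith
    linarith

set_option maxHeartbeats 1000000 in
/-- the loss terms of the descent are small -/
theorem num_desc (D m A : ℕ) (c ρ : ℝ) (hm : 1 ≤ m) (hA : 2 ≤ A) (hc : 0 < c) (hc1 : c < 1)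
    (hρ : 0 < ρ) (hAm : 16 * (m : ℝ) ≤ c * A) : ∃ N0 : ℕ, 1 ≤ N0 ∧ ∀ k0 ≥ N0, ∀ j : ℕ,
    (nn A ρ (k0 + j) : ℝ) * ((k0 + j : ℕ) + 1) * Real.log A
      - 3 * c * ((nn A ρ (k0 + j) : ℝ) * ((k0 + j : ℕ) * Real.log A))
    ≤ Real.log (⌊Real.exp ((1 - c) * ((nn A ρ (k0 + j) : ℝ) * ((k0 + j : ℕ) * Real.log A)))⌋₊ : ℝ)
      - (((j : ℝ) + 1) * Real.log m
        + ∑ i ∈ range j, Real.log ((A ^ ((k0 + i + 1) * nn A ρ (k0 + i)) : ℕ) : ℝ)
        + 2 * Real.log (2 * (D * ∑ i ∈ range j,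
            ((A ^ ((k0 + i + 1) * nn A ρ (k0 + i) * m) : ℕ) : ℝ)) + 1)) := by
  have hA' : (2 : ℝ) ≤ A := by exact_mod_cast hA
  have hA0 : (0 : ℝ) < A := by linarith
  have hm' : (1 : ℝ) ≤ m := by exact_mod_cast hm
  set L := Real.log A with hL
  have hL0 : 0 < L := Real.log_pos (by linarith)
  obtain ⟨N1, hN1⟩ := ev_pow A hA 1 (2 / ρ)
  obtain ⟨N2, hN2⟩ := ev_pow A hA 1 ((1 + 2 * m + 4 * D) * (4 / (c * ρ * L)))
  obtain ⟨N3, hN3⟩ := exists_nat_ge (4 / c)
  refine ⟨N1 + N2 + N3 + 1, by omega, fun k0 hk0 j => ?_⟩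
  set k := k0 + j with hk
  have hk1 : 1 ≤ k := by omega
  have hkr : (1 : ℝ) ≤ k := by exact_mod_cast hk1
  have hk0' : (0 : ℝ) < k := by linarith
  set X : ℝ := ρ * (A : ℝ) ^ k with hX
  have hX0 : 0 < X := by positivity
  have hkX : (k : ℝ) ≤ X / 2 := by
    have h1 := hN1 k (by omega)
    rw [pow_one] at h1
    have h2 : ρ * (2 / ρ * k) ≤ ρ * (A : ℝ) ^ k := mul_le_mul_of_nonneg_left h1 hρ.le
    have h3 : ρ * (2 / ρ * k) = 2 * k := by field_simp
    rw [h3] at h2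
    linarith
  have hsm : (1 + 2 * m + 4 * D : ℝ) * k ≤ c / 4 * (X * L) := by
    have h1 := hN2 k (by omega)
    rw [pow_one] at h1
    have h2 := mul_le_mul_of_nonneg_left h1 (show 0 ≤ c * ρ * L / 4 by positivity)
    have h3 : c * ρ * L / 4 * ((1 + 2 * m + 4 * D) * (4 / (c * ρ * L)) * k)
        = (1 + 2 * m + 4 * D : ℝ) * k := by
      field_simp
    rw [h3] at h2
    have h4 : c * ρ * L / 4 * (A : ℝ) ^ k = c / 4 * (X * L) := by rw [hX]; ring
    rw [h4] at h2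
    exact h2
  have hk4 : 4 / c ≤ k := hN3.trans (by exact_mod_cast (by omega : N3 ≤ k))
  -- n_k
  set n : ℝ := (nn A ρ k : ℝ) with hn
  have hn0 : 0 ≤ n := Nat.cast_nonneg _
  have hnk : n * k ≤ X := nn_mul_le hρ.le (by omega)
  have hnk2 : X / 2 ≤ n * k := by
    have := le_nn_mul (A := A) (ρ := ρ) (k := k) (by omega)
    linarith
  have hn4 : n ≤ c / 4 * X := by
    have h1 : n * (4 / c) ≤ n * k := mul_le_mul_of_nonneg_left hk4 hn0
    have h2 : n * (4 / c) ≤ X := h1.trans hnk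
    have h3 : n = (n * (4 / c)) * (c / 4) := by field_simp
    rw [h3]
    nlinarith
  -- previous levels
  have hprev : ∀ i ∈ range j, ((k0 + i + 1 : ℕ) : ℝ) * nn A ρ (k0 + i)
      ≤ 2 * (ρ * (A : ℝ) ^ (k0 + i)) := by
    intro i _
    have hi1 : 0 < k0 + i := by omega
    have h1 := nn_mul_le (A := A) hρ.le hi1
    have h2 : (1 : ℝ) ≤ ((k0 + i : ℕ) : ℝ) := by exact_mod_cast hi1
    have h3 : (0 : ℝ) ≤ (nn A ρ (k0 + i) : ℝ) := Nat.cast_nonneg _
    push_cast at h1 h2 ⊢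
    nlinarith
  have hS1 : ∑ i ∈ range j, Real.log ((A ^ ((k0 + i + 1) * nn A ρ (k0 + i)) : ℕ) : ℝ)
      ≤ 4 * (X * L) / A := by
    calc ∑ i ∈ range j, Real.log ((A ^ ((k0 + i + 1) * nn A ρ (k0 + i)) : ℕ) : ℝ)
        ≤ ∑ i ∈ range j, 2 * (ρ * (A : ℝ) ^ (k0 + i)) * L := by
          refine Finset.sum_le_sum (fun i hi => ?_)
          push_cast
          rw [Real.log_pow]
          have := hprev i hi
          push_cast at this ⊢
          exact mul_le_mul_of_nonneg_right this hL0.le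
      _ = 2 * ρ * L * ∑ i ∈ range j, (A : ℝ) ^ (k0 + i) := by
          rw [Finset.mul_sum]
          exact Finset.sum_congr rfl (fun i _ => by ring)
      _ ≤ 2 * ρ * L * (2 * (A : ℝ) ^ (k0 + j) / A) :=
          mul_le_mul_of_nonneg_left (sum_geom_le hA k0 j) (by positivity)
      _ = 4 * (X * L) / A := by rw [hX, hk]; ring
  have hS2 : Real.log (2 * (D * ∑ i ∈ range j,
      ((A ^ ((k0 + i + 1) * nn A ρ (k0 + i) * m) : ℕ) : ℝ)) + 1)
      ≤ 2 * D * k + 2 * m * (X * L) / A := by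
    have h1 : ∀ i ∈ range j, ((A ^ ((k0 + i + 1) * nn A ρ (k0 + i) * m) : ℕ) : ℝ)
        ≤ Real.exp (2 * m * (X * L) / A) := by
      intro i hi
      push_cast
      rw [← Real.rpow_natCast, Real.rpow_def_of_pos hA0]
      refine Real.exp_le_exp.2 ?_
      have h2 := hprev i hi
      have h3 : (A : ℝ) ^ (k0 + i) ≤ (A : ℝ) ^ k / A := by
        rw [le_div_iff₀ hA0, ← pow_succ]
        refine pow_le_pow_right₀ (by linarith) ?_
        have := Finset.mem_range.1 hi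
        omega
      have h4 : ρ * (A : ℝ) ^ (k0 + i) ≤ X / A := by
        rw [hX, mul_div_assoc]
        exact mul_le_mul_of_nonneg_left h3 hρ.le
      push_cast at h2 ⊢
      have h5 : ((k0 : ℝ) + i + 1) * nn A ρ (k0 + i) ≤ 2 * (X / A) := h2.trans (by linarith)
      have h6 := mul_le_mul_of_nonneg_right h5 (show 0 ≤ (m : ℝ) * L by positivity)
      calc L * (((k0 : ℝ) + i + 1) * nn A ρ (k0 + i) * m)
          = ((k0 : ℝ) + i + 1) * nn A ρ (k0 + i) * (m * L) := by ring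
        _ ≤ 2 * (X / A) * (m * L) := h6
        _ = 2 * m * (X * L) / A := by ring
    have h7 : ∑ i ∈ range j, ((A ^ ((k0 + i + 1) * nn A ρ (k0 + i) * m) : ℕ) : ℝ)
        ≤ k * Real.exp (2 * m * (X * L) / A) := by
      refine (Finset.sum_le_sum h1).trans ?_
      rw [Finset.sum_const, Finset.card_range, nsmul_eq_mul]
      refine mul_le_mul_of_nonneg_right ?_ (Real.exp_pos _).le
      exact_mod_cast (by omega : j ≤ k)
    have h8 : 2 * (D * ∑ i ∈ range j,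
        ((A ^ ((k0 + i + 1) * nn A ρ (k0 + i) * m) : ℕ) : ℝ)) + 1
        ≤ (2 * D * k + 1) * Real.exp (2 * m * (X * L) / A) := by
      have h9 : (1 : ℝ) ≤ Real.exp (2 * m * (X * L) / A) := Real.one_le_exp (by positivity)
      have h10 := mul_le_mul_of_nonneg_left h7 (show (0 : ℝ) ≤ 2 * D by positivity)
      calc 2 * (D * ∑ i ∈ range j,
          ((A ^ ((k0 + i + 1) * nn A ρ (k0 + i) * m) : ℕ) : ℝ)) + 1
          = 2 * D * (∑ i ∈ range j,
          ((A ^ ((k0 + i + 1) * nn A ρ (k0 + i) * m) : ℕ) : ℝ)) + 1 := by ring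
        _ ≤ 2 * D * (k * Real.exp (2 * m * (X * L) / A)) + Real.exp (2 * m * (X * L) / A) :=
            add_le_add h10 h9
        _ = _ := by ring
    refine (Real.log_le_log (by positivity) h8).trans ?_
    rw [Real.log_mul (by positivity) (Real.exp_pos _).ne', Real.log_exp]
    have h11 : Real.log (2 * D * k + 1) ≤ 2 * D * k := by
      have := Real.log_le_sub_one_of_pos (show (0 : ℝ) < 2 * D * k + 1 by positivity)
      linarith
    linarith
  have hF := log_floor_exp (z := (1 - c) * (n * (k * L))) (by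
    have : 0 ≤ 1 - c := by linarith
    positivity)
  have hlogm : Real.log m ≤ m := by
    have := Real.log_le_sub_one_of_pos (show (0 : ℝ) < m by linarith)
    linarith
  have hlogm0 : 0 ≤ Real.log m := Real.log_nonneg hm'
  have hjk : (j : ℝ) + 1 ≤ 2 * k := by
    have : j ≤ k := by omega
    have : (j : ℝ) ≤ k := by exact_mod_cast this
    linarith
  have hjm : ((j : ℝ) + 1) * Real.log m ≤ 2 * k * m :=
    mul_le_mul hjk hlogm hlogm0 (by positivity)
  have hlog2 : Real.log 2 ≤ 1 := by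
    have := Real.log_le_sub_one_of_pos (show (0 : ℝ) < 2 by norm_num)
    linarith
  -- the big term
  have hbig : (4 + 4 * m) * (X * L) / A ≤ c / 2 * (X * L) := by
    rw [div_le_iff₀ hA0]
    have h1 : (4 + 4 * (m : ℝ)) ≤ c / 2 * A := by nlinarith
    have h2 := mul_le_mul_of_nonneg_right h1 (show 0 ≤ X * L by positivity)
    linarith
  have hmain : c * (X * L) ≤ 2 * c * (n * (k * L)) := by
    have h1 := mul_le_mul_of_nonneg_right hnk2 (show 0 ≤ 2 * c * L by positivity)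
    have h2 : X / 2 * (2 * c * L) = c * (X * L) := by ring
    have h3 : n * k * (2 * c * L) = 2 * c * (n * (k * L)) := by ring
    rw [h2, h3] at h1; exact h1
  have hnL : n * L ≤ c / 4 * (X * L) := by
    have := mul_le_mul_of_nonneg_right hn4 hL0.le
    linarith
  have hDk : (1 : ℝ) + 2 * k * m + 2 * (2 * D * k) ≤ c / 4 * (X * L) := by
    refine le_trans ?_ hsm
    have : (1 : ℝ) ≤ k := hkr
    nlinarith
  have hsplit : (4 + 4 * m) * (X * L) / A = 4 * (X * L) / A + 2 * (2 * m * (X * L) / A) := by ring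
  have e1 : n * ((k : ℝ) + 1) * L = n * (k * L) + n * L := by ring
  rw [e1]
  linarith only [hF, hS1, hS2, hjm, hlog2, hbig, hmain, hnL, hDk, hsplit]

end Vale.Agent.P015.H416
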