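import Vale.Agent.P015.H416.Zq
import Vale.Agent.P015.H416.Num

/-!
# P015, MIDDLE: assembly
-/

namespace Vale.Agent.P015.H416

open Finset Vale.Agent.P015.H222

/-- [MIDSEL] (helper723): choice of the subrange -/
def Spec_MIDSEL : Prop :=
  ∀ (D A B m a l Nb : ℕ) (ρ ε CJ R : ℝ) (r : ℕ → ℤ) (g : ℕ → ℤ × ℤ) (P : ℕ → Finset ℕ)
    (J : ℕ → ℕ), IPath D g → 2 ≤ A → 2 ≤ B → 1 ≤ a → 1 ≤ l → l ≤ a ^ 4 → 1 ≤ Nb →
    A ^ (3 * (a * B ^ m)) ≤ Nb * l → 2 * (D * l) ^ 2 < A ^ a →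
    (∀ k ∈ Ico a (a * B ^ m), Rts r (P k)) →
    (∀ k ∈ Ico a (a * B ^ m), ∀ p ∈ P k, A ^ k < p ∧ p ≤ A ^ (k + 1)) →
    (∀ k ∈ Ico a (a * B ^ m), ρ * (A : ℝ) ^ k ≤ k * (P k).card) →
    (∀ k ∈ Ico a (a * B ^ m), ∀ p ∈ P k,
      ∃ x : ZMod p, ∀ n, ((lf (r p) (g n) : ℤ) : ZMod p) ≠ x) →
    (∀ k ∈ Ico a (a * B ^ m), 1 ≤ J k) →
    (∀ k ∈ Ico a (a * B ^ m), (A : ℝ) ^ (k + 1) * (((k : ℝ) + 1) * Real.log A) ≤ (J k : ℝ) * l) →
    (∀ k ∈ Ico a (a * B ^ m), (J k : ℝ) * l ≤ CJ * ((A : ℝ) ^ k * k)) →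
    0 < ρ → 0 < CJ → CJ * R ≤ ρ * Real.log A * (ε * m) → 1 ≤ m →
    (∑ k ∈ Ico a (a * B ^ m), 1 / ((J k : ℝ) * l) *
      ∑ p ∈ P k, (Real.log p - Real.log (Zm r g l Nb (J k) p)) ≤ R) →
    ∃ i < m, ∃ (q : ∀ p : ℕ, ZMod p → ℝ) (β : ℕ → ℝ), SoftWin A B ρ ε r (a * B ^ i) l Nb g P q β

theorem exists_sigma {α : Type*} [DecidableEq α] (S : Finset ℕ) (f : ℕ → α) {s : ℕ}
    (h : s ≤ (S.image f).card) :
    ∃ σ : Fin s → ℕ, (∀ i, σ i ∈ S) ∧ Function.Injective (fun i => f (σ i)) := by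
  obtain ⟨T, hT, hTc⟩ := Finset.exists_subset_card_eq h
  have hch : ∀ x : T, ∃ n ∈ S, f n = x := fun x => by
    obtain ⟨n, hn, hx⟩ := Finset.mem_image.1 (hT x.2)
    exact ⟨n, hn, hx⟩
  choose F hF hFx using hch
  let e : Fin s ≃ T := (T.equivFinOfCardEq hTc).symm
  refine ⟨fun i => F (e i), fun i => hF _, fun i j hij => ?_⟩
  simp only [hFx] at hij
  exact e.injective (Subtype.ext hij)

theorem sum_inv_le (a B m : ℕ) (ha : 1 ≤ a) (hB : 1 ≤ B) :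
    ∑ k ∈ Ico a (a * B ^ m), 1 / (k : ℝ) ≤ m * B := by
  induction m with
  | zero => simp
  | succ m ih =>
    have h1 : a ≤ a * B ^ m := Nat.le_mul_of_pos_right _ (by positivity)
    have h2 : a * B ^ m ≤ a * B ^ (m + 1) :=
      Nat.mul_le_mul_left _ (Nat.pow_le_pow_right hB (by omega))
    rw [← Finset.sum_Ico_consecutive _ h1 h2]
    have h3 : ∑ k ∈ Ico (a * B ^ m) (a * B ^ (m + 1)), 1 / (k : ℝ) ≤ B := by
      have hpos : 0 < a * B ^ m := by positivity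
      have hpos' : (0 : ℝ) < ((a * B ^ m : ℕ) : ℝ) := by exact_mod_cast hpos
      calc ∑ k ∈ Ico (a * B ^ m) (a * B ^ (m + 1)), 1 / (k : ℝ)
          ≤ ∑ k ∈ Ico (a * B ^ m) (a * B ^ (m + 1)), 1 / ((a * B ^ m : ℕ) : ℝ) := by
            refine Finset.sum_le_sum (fun k hk => ?_)
            have := (Finset.mem_Ico.1 hk).1
            exact one_div_le_one_div_of_le hpos' (by exact_mod_cast this)
        _ = ((a * B ^ (m + 1) - a * B ^ m : ℕ) : ℝ) * (1 / ((a * B ^ m : ℕ) : ℝ)) := by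
            rw [Finset.sum_const, Nat.card_Ico, nsmul_eq_mul]
        _ ≤ ((a * B ^ (m + 1) : ℕ) : ℝ) * (1 / ((a * B ^ m : ℕ) : ℝ)) := by
            refine mul_le_mul_of_nonneg_right ?_ (by positivity)
            exact_mod_cast Nat.sub_le _ _
        _ = B := by
            rw [pow_succ, ← mul_assoc]
            push_cast
            have hB0 : (0 : ℝ) < B := by exact_mod_cast hB
            have ha0 : (0 : ℝ) < a := by exact_mod_cast ha
            field_simp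
    push_cast
    linarith

/-- the cost of the displacements is at most `1` in total -/
theorem ld_bound (D A k1 l K : ℕ) (hA : 2 ≤ A) (hk1 : 1 ≤ k1) (hl1 : k1 ^ 3 ≤ l)
    (hl2 : l ≤ 2 * k1 ^ 3) (hK : K ≤ k1) (hk : 2 * (2 * D + 3 * Real.log A + 4) ≤ k1) :
    (K : ℝ) * (1 / l * (2 * Real.log (2 * (D * ((A ^ (3 * k1) : ℕ) * (l : ℝ))) + 1))) ≤ 1 := by
  have hA' : (2 : ℝ) ≤ A := by exact_mod_cast hA
  have hk1' : (1 : ℝ) ≤ k1 := by exact_mod_cast hk1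
  have hl1' : (k1 : ℝ) ^ 3 ≤ l := by exact_mod_cast hl1
  have hl2' : (l : ℝ) ≤ 2 * (k1 : ℝ) ^ 3 := by exact_mod_cast hl2
  have hK' : (K : ℝ) ≤ k1 := by exact_mod_cast hK
  have hk3 : (1 : ℝ) ≤ (k1 : ℝ) ^ 3 := one_le_pow₀ hk1'
  have hl0 : (1 : ℝ) ≤ l := hk3.trans hl1'
  have hL0 : 0 ≤ Real.log A := Real.log_nonneg (by linarith)
  have hNb : (1 : ℝ) ≤ ((A ^ (3 * k1) : ℕ) : ℝ) := by
    push_cast
    exact one_le_pow₀ (by linarith)
  obtain ⟨N, hN⟩ : ∃ N : ℝ, N = ((A ^ (3 * k1) : ℕ) : ℝ) := ⟨_, rfl⟩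
  have hlogN : Real.log N = 3 * k1 * Real.log A := by
    rw [hN]; push_cast; rw [Real.log_pow]; push_cast; ring
  rw [← hN] at hNb ⊢
  have h1 : Real.log (2 * (D * (N * (l : ℝ))) + 1) ≤ 2 * D + 3 * k1 * Real.log A + 4 * k1 := by
    have hNl : (1 : ℝ) ≤ N * l := by nlinarith
    have h2 : 2 * (D * (N * (l : ℝ))) + 1 ≤ (2 * D + 1) * (N * l) := by
      have : (0 : ℝ) ≤ D := Nat.cast_nonneg _
      nlinarith
    have h3 : Real.log (2 * (D * (N * (l : ℝ))) + 1) ≤ Real.log ((2 * D + 1) * (N * l)) := by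
      refine Real.log_le_log ?_ h2
      positivity
    rw [Real.log_mul (by positivity) (by positivity), Real.log_mul (by positivity) (by positivity),
      hlogN] at h3
    have h4 : Real.log (2 * D + 1) ≤ 2 * D := by
      have := Real.log_le_sub_one_of_pos (show (0 : ℝ) < 2 * D + 1 by positivity)
      linarith
    have h5 : Real.log l ≤ 4 * k1 := by
      refine (Real.log_le_log (by linarith) hl2').trans ?_
      rw [Real.log_mul two_ne_zero (by positivity), Real.log_pow]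
      have h6 := Real.log_le_sub_one_of_pos (show (0 : ℝ) < 2 by norm_num)
      have h7 := Real.log_le_sub_one_of_pos (show (0 : ℝ) < (k1 : ℝ) by linarith)
      push_cast
      linarith
    linarith
  have h8 : Real.log (2 * (D * (N * (l : ℝ))) + 1) ≤ k1 * (2 * D + 3 * Real.log A + 4) := by
    have h9 : (2 : ℝ) * D ≤ 2 * D * k1 := by
      have : (0 : ℝ) ≤ D := Nat.cast_nonneg _
      nlinarith
    linarith
  have h0 : 0 ≤ Real.log (2 * (D * (N * (l : ℝ))) + 1) := by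
    refine Real.log_nonneg ?_
    have : (0 : ℝ) ≤ 2 * (D * (N * (l : ℝ))) := by positivity
    linarith
  have hpos : (0 : ℝ) < l := by linarith
  have h10 : (K : ℝ) * (1 / l * (2 * Real.log (2 * (D * (N * (l : ℝ))) + 1)))
      = (K * (2 * Real.log (2 * (D * (N * (l : ℝ))) + 1))) / l := by ring
  rw [h10, div_le_one hpos]
  refine le_trans ?_ hl1'
  calc (K : ℝ) * (2 * Real.log (2 * (D * (N * (l : ℝ))) + 1))
      ≤ k1 * (2 * (k1 * (2 * D + 3 * Real.log A + 4))) := by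
        refine mul_le_mul hK' ?_ (by linarith) (by linarith)
        linarith
    _ = (k1 : ℝ) ^ 2 * (2 * (2 * D + 3 * Real.log A + 4)) := by ring
    _ ≤ (k1 : ℝ) ^ 2 * k1 := mul_le_mul_of_nonneg_left hk (by positivity)
    _ = (k1 : ℝ) ^ 3 := by ring

/-- `2 ^ log₂ k` is between `k / 2` and `k` -/
theorem two_log (k : ℕ) (hk : 1 ≤ k) : 2 ^ Nat.log 2 k ≤ k ∧ k ≤ 2 * 2 ^ Nat.log 2 k := by
  refine ⟨Nat.pow_log_le_self 2 (by omega), ?_⟩
  have := Nat.lt_pow_succ_log_self (b := 2) (by norm_num) k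
  rw [pow_succ] at this
  omega

/-- the sample sizes -/
def Jk (e lam k : ℕ) : ℕ := 2 ^ (e * k + Nat.log 2 k + (2 * e + 2) - lam)

theorem Jk_mul {e lam k : ℕ} (h : lam ≤ e * k) :
    Jk e lam k * 2 ^ lam = 4 * (2 ^ e) ^ 2 * ((2 ^ e) ^ k * 2 ^ Nat.log 2 k) := by
  rw [Jk, ← pow_add, Nat.sub_add_cancel (by omega)]
  rw [pow_add, pow_add, pow_add, pow_mul, pow_mul']
  ring

theorem Jk_dvd {e lam k : ℕ} : Jk e lam k ∣ Jk e lam (k + 1) := by
  rw [Jk, Jk]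
  refine pow_dvd_pow 2 ?_
  have h1 : Nat.log 2 k ≤ Nat.log 2 (k + 1) := Nat.log_mono_right (by omega)
  have h2 : e * k ≤ e * (k + 1) := Nat.mul_le_mul_left _ (by omega)
  omega

end Vale.Agent.P015.H416
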