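import Vale.Agent.P015.H416.Main

/-!
# P015, MIDDLE: `Spec_ENT → Spec_FATP → Spec_LEVP → Spec_MIDDLE`
-/

namespace Vale.Agent.P015.H416

open Finset Vale.Agent.P015.H222

theorem exists_k0 (D A B I N Nn : ℕ) (ρ : ℝ) (hA : 2 ≤ A) (hρ : 0 < ρ) : ∃ k0 : ℕ,
    N ≤ k0 ∧ 1 ≤ k0 ∧ 2 * B ^ (3 * I) ≤ k0 ∧ 2 * (2 * D + 3 * Real.log A + 4) ≤ k0 ∧
    (∀ k ≥ k0, 2 * (k : ℝ) ≤ ρ * (A : ℝ) ^ k) ∧
    (∀ k ≥ k0, (Nn : ℝ) * (k : ℝ) ≤ ρ * (A : ℝ) ^ k) ∧
    2 * B ^ (3 * I) * k0 ^ 3 ≤ A ^ k0 ∧ 2 * (D * (2 * B ^ (3 * I) * k0 ^ 3)) ^ 2 < A ^ k0 := by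
  obtain ⟨N1, h1⟩ := ev_pow A hA 1 (2 / ρ)
  obtain ⟨N2, h2⟩ := ev_pow A hA 1 (Nn / ρ)
  obtain ⟨N3, h3⟩ := ev_pow A hA 3 (2 * B ^ (3 * I))
  obtain ⟨N4, h4⟩ := ev_pow A hA 6 (2 * (D * (2 * B ^ (3 * I))) ^ 2 + 1)
  obtain ⟨N5, h5⟩ := exists_nat_ge (2 * (2 * D + 3 * Real.log A + 4) : ℝ)
  obtain ⟨k0, hk0⟩ : ∃ k0 : ℕ, k0 = N + 1 + 2 * B ^ (3 * I) + N1 + N2 + N3 + N4 + N5 := ⟨_, rfl⟩
  refine ⟨k0, by omega, by omega, by omega, h5.trans (by exact_mod_cast (by omega)), ?_, ?_, ?_, ?_⟩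
  · intro k hk
    have := h1 k (by omega)
    rw [pow_one, div_mul_eq_mul_div, div_le_iff₀ hρ] at this
    linarith
  · intro k hk
    have := h2 k (by omega)
    rw [pow_one, div_mul_eq_mul_div, div_le_iff₀ hρ] at this
    linarith
  · exact_mod_cast h3 k0 (by omega)
  · have h6 := h4 k0 (by omega)
    have h7 : (2 * (D * (2 * B ^ (3 * I) * k0 ^ 3)) ^ 2 : ℕ) + 1 ≤ A ^ k0 := by
      have h8 : (1 : ℝ) ≤ (k0 : ℝ) ^ 6 := one_le_pow₀ (by exact_mod_cast (by omega : 1 ≤ k0))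
      have h9 : ((2 * (D * (2 * B ^ (3 * I) * k0 ^ 3)) ^ 2 + 1 : ℕ) : ℝ) ≤ ((A ^ k0 : ℕ) : ℝ) := by
        push_cast
        refine le_trans ?_ h6
        have e : (2 * (D * (2 * B ^ (3 * I))) ^ 2 + 1 : ℝ) * (k0 : ℝ) ^ 6
            = 2 * (D * (2 * B ^ (3 * I) * (k0 : ℝ) ^ 3)) ^ 2 + (k0 : ℝ) ^ 6 := by ring
        rw [e]
        linarith
      exact_mod_cast h9
    omega

theorem middle_of (hmid : Spec_MIDSEL) (hE : Spec_ENT) (hF : Spec_FATP) (hL : Spec_LEVP) :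
    Spec_MIDDLE := by
  classical
  intro D g r hg hr hmiss B ε hB hε
  have hB' : (2 : ℝ) ≤ B := by exact_mod_cast hB
  have hB0 : (0 : ℝ) < B := by linarith
  obtain ⟨c, hc⟩ : ∃ c : ℝ, c = min (ε / (24 * B)) (1 / 2) := ⟨_, rfl⟩
  have hc0 : 0 < c := by rw [hc]; exact lt_min (by positivity) (by norm_num)
  have hc1 : c < 1 := by rw [hc]; exact (min_le_right _ _).trans_lt (by norm_num)
  have hcB : 24 * B * c ≤ ε := by
    have : c ≤ ε / (24 * B) := by rw [hc]; exact min_le_left _ _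
    rw [le_div_iff₀ (by positivity)] at this
    linarith
  obtain ⟨m, hm, hFA⟩ := hF D c hc0 hc1
  obtain ⟨A0, hLA⟩ := hL
  have hm0 : (0 : ℝ) < m := by exact_mod_cast hm
  -- the ratio of the levels
  obtain ⟨e, he⟩ := pow_unbounded_of_one_lt (max (A0 : ℝ) (max 2 (16 * m / c))) (one_lt_two)
  obtain ⟨A, hAe⟩ : ∃ A : ℕ, A = 2 ^ e := ⟨_, rfl⟩
  have hAr : (A : ℝ) = 2 ^ e := by rw [hAe]; push_cast; rfl
  have hAA0 : A0 ≤ A := by
    have : (A0 : ℝ) < A := by rw [hAr]; exact (le_max_left _ _).trans_lt he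
    exact_mod_cast this.le
  have hA2 : 2 ≤ A := by
    have : (2 : ℝ) < A := by
      rw [hAr]; exact ((le_max_left _ _).trans (le_max_right _ _)).trans_lt he
    exact_mod_cast this.le
  have hAm : 16 * (m : ℝ) ≤ c * A := by
    have : 16 * m / c < A := by
      rw [hAr]; exact ((le_max_right _ _).trans (le_max_right _ _)).trans_lt he
    rw [div_lt_iff₀ hc0] at this
    linarith
  have hA' : (2 : ℝ) ≤ A := by exact_mod_cast hA2
  have hA0 : (0 : ℝ) < A := by linarith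
  obtain ⟨ρ, N1, hρ, hLv⟩ := hLA A hAA0 m hm
  obtain ⟨N2, hFN⟩ := hFA A hA2
  obtain ⟨N3, hN3, hnum⟩ := num_desc D m A c ρ hm hA2 hc0 hc1 hρ hAm
  obtain ⟨L, hLdef⟩ : ∃ L : ℝ, L = Real.log A := ⟨_, rfl⟩
  have hL0 : 0 < L := by rw [hLdef]; exact Real.log_pos (by linarith)
  have hLA' : L ≤ A := by
    rw [hLdef]
    have := Real.log_le_sub_one_of_pos hA0
    linarith
  obtain ⟨C', hC'⟩ : ∃ C' : ℝ, C' = 2 * Real.log (2 * D + 1) + 1 := ⟨_, rfl⟩
  have hC'0 : 0 < C' := by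
    have h1 : 0 ≤ Real.log (2 * (D : ℝ) + 1) := by
      refine Real.log_nonneg ?_
      have : (0 : ℝ) ≤ D := Nat.cast_nonneg _
      linarith
    rw [hC']; linarith
  obtain ⟨I', hI'⟩ := exists_nat_ge (16 * (A : ℝ) ^ 2 * C' / (ρ * L * ε))
  obtain ⟨I, hI⟩ : ∃ I : ℕ, I = I' + 1 := ⟨_, rfl⟩
  have hI1 : 1 ≤ I := by omega
  have hIr : 16 * (A : ℝ) ^ 2 * C' ≤ ρ * L * ε * I := by
    have h1 : 16 * (A : ℝ) ^ 2 * C' / (ρ * L * ε) ≤ I := by
      refine hI'.trans ?_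
      rw [hI]; push_cast; linarith
    rw [div_le_iff₀ (by positivity)] at h1
    linarith
  refine ⟨A, ρ / 2, hA2, by positivity, fun K0 => ?_⟩
  obtain ⟨k0, hkN, hk1, hkB, hkL, hkρ, hkn, hk3, hk6⟩ :=
    exists_k0 D A B I (K0 + N1 + N2 + N3) N2 ρ hA2 hρ
  obtain ⟨k1, hk1def⟩ : ∃ k1 : ℕ, k1 = k0 * B ^ I := ⟨_, rfl⟩
  have hBI : 1 ≤ B ^ I := Nat.one_le_pow _ _ (by omega)
  have hk01 : k0 ≤ k1 := by rw [hk1def]; exact Nat.le_mul_of_pos_right _ (by omega)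
  have hk11 : 1 ≤ k1 := hk1.trans hk01
  -- block length
  obtain ⟨lam, hlam⟩ : ∃ lam : ℕ, lam = Nat.log 2 (k1 ^ 3) + 1 := ⟨_, rfl⟩
  obtain ⟨l, hl⟩ : ∃ l : ℕ, l = 2 ^ lam := ⟨_, rfl⟩
  have hk13 : 1 ≤ k1 ^ 3 := Nat.one_le_pow _ _ (by omega)
  have hl1 : k1 ^ 3 ≤ l := by
    rw [hl, hlam, pow_succ 2]
    have := (two_log (k1 ^ 3) hk13).2
    omega
  have hl2 : l ≤ 2 * k1 ^ 3 := by
    rw [hl, hlam, pow_succ 2]
    have := (two_log (k1 ^ 3) hk13).1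
    omega
  have hl3 : l ≤ 2 * B ^ (3 * I) * k0 ^ 3 := by
    refine hl2.trans ?_
    rw [hk1def, mul_pow, ← pow_mul, mul_comm I 3]
    nlinarith
  have hl0 : 1 ≤ l := hk13.trans hl1
  have hlA : l ≤ A ^ k0 := hl3.trans hk3
  have hl4 : l ≤ k0 ^ 4 := by
    refine hl3.trans ?_
    calc 2 * B ^ (3 * I) * k0 ^ 3 ≤ k0 * k0 ^ 3 := Nat.mul_le_mul_right _ hkB
      _ = k0 ^ 4 := by ring
  have hlamk : ∀ k, k0 ≤ k → lam ≤ e * k := by
    intro k hk
    have h1 : 2 ^ lam ≤ 2 ^ (e * k0) := by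
      rw [← hl, pow_mul, ← hAe]; exact hlA
    have h2 := (Nat.pow_le_pow_iff_right (by norm_num : 1 < 2)).1 h1
    exact h2.trans (Nat.mul_le_mul_left _ hk)
  have hDl : 2 * (D * l) ^ 2 < A ^ k0 := by
    refine lt_of_le_of_lt ?_ hk6
    gcongr
  obtain ⟨Nb, hNb⟩ : ∃ Nb : ℕ, Nb = A ^ (3 * k1) := ⟨_, rfl⟩
  have hNb1 : 1 ≤ Nb := by rw [hNb]; exact Nat.one_le_pow _ _ (by omega)
  -- sample sizes
  have hJl : ∀ k, k0 ≤ k → ((Jk e lam k : ℕ) : ℝ) * l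
      = 4 * (A : ℝ) ^ 2 * ((A : ℝ) ^ k * (2 ^ Nat.log 2 k : ℕ)) := by
    intro k hk
    have := Jk_mul (hlamk k hk)
    rw [← hl, ← hAe] at this
    exact_mod_cast this
  have hlog2 : ∀ k, k0 ≤ k → ((2 ^ Nat.log 2 k : ℕ) : ℝ) ≤ k ∧ (k : ℝ) ≤ 2 * (2 ^ Nat.log 2 k : ℕ) := by
    intro k hk
    have := two_log k (hk1.trans hk)
    exact ⟨by exact_mod_cast this.1, by exact_mod_cast this.2⟩
  have hJpos : ∀ k, 1 ≤ Jk e lam k := fun k => Nat.one_le_pow _ _ (by norm_num)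
  -- the leaves
  have hLv' : ∀ k, ∃ P : Fin m → Finset ℕ, k0 ≤ k →
      (∀ b b', b ≠ b' → Disjoint (P b) (P b')) ∧ (∀ b, (P b).card = nn A ρ k) ∧
      ∀ b, ∀ p ∈ P b, p.Prime ∧ p % 4 = 1 ∧ A ^ k < p ∧ p ≤ A ^ (k + 1) := by
    intro k
    by_cases hk : k0 ≤ k
    · obtain ⟨P, hP⟩ := hLv k (by omega) (nn A ρ k) (nn_mul_le hρ.le (by omega))
      exact ⟨P, fun _ => hP⟩
    · exact ⟨fun _ => ∅, fun h => absurd h hk⟩
  choose Pl hPl using hLv'
  have hnlarge : ∀ k, k0 ≤ k → N2 ≤ nn A ρ k := by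
    intro k hk
    have hk' : (0 : ℝ) < k := by exact_mod_cast (by omega : 0 < k)
    refine Nat.le_floor ?_
    rw [le_div_iff₀ hk']
    exact hkn k hk
  -- ENT
  obtain ⟨K, hK⟩ : ∃ K : ℕ, K = k1 - k0 := ⟨_, rfl⟩
  have hent := hE D g r hg K l Nb hl0 hNb1 m (fun j b => Pl (k0 + j) b) hm
    (fun j _ b p hp => ((hPl (k0 + j) (by omega)).2.2 b p hp).1)
    (fun j _ b p hp => by
      obtain ⟨h1, h2, _, _⟩ := (hPl (k0 + j) (by omega)).2.2 b p hp
      exact hmiss p h1 h2)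
    (fun j => ⌊Real.exp ((1 - c) * ((nn A ρ (k0 + j) : ℝ) * ((k0 + j : ℕ) * Real.log A)))⌋₊)
    (fun j => A ^ ((k0 + j + 1) * nn A ρ (k0 + j) * m))
    (fun j => A ^ ((k0 + j + 1) * nn A ρ (k0 + j)))
    (fun j => Jk e lam (k0 + j))
    (fun j _ => by
      refine Nat.le_floor ?_
      rw [Nat.cast_one]
      refine Real.one_le_exp ?_
      have h1 : 0 ≤ 1 - c := by linarith
      have h2 : 0 ≤ Real.log A := by rw [← hLdef]; exact hL0.le
      positivity)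
    (fun j _ b => by
      obtain ⟨_, h2, h3⟩ := hPl (k0 + j) (by omega)
      rw [pow_mul, ← h2 b]
      exact Finset.prod_le_pow_card _ _ _ (fun p hp => (h3 b p hp).2.2.2))
    (fun j _ => hJpos _)
    (fun j _ => Jk_dvd)
    (fun j _ t => by
      obtain ⟨h1, h2, h3⟩ := hPl (k0 + j) (by omega)
      obtain ⟨b, hb⟩ := hFN (k0 + j) (nn A ρ (k0 + j)) (by omega) (hnlarge _ (by omega)) r g hg
        (Pl (k0 + j)) h1 h2 (fun b p hp => by
          obtain ⟨h4, h5, h6, h7⟩ := h3 b p hp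
          exact ⟨h4, h6, h7, hr p h4 h5⟩) t
      refine ⟨b, ?_⟩
      have hb' : ⌊Real.exp ((1 - c) * ((nn A ρ (k0 + j) : ℝ) * ((k0 + j : ℕ) * Real.log A)))⌋₊
          ≤ ((Icc t (t + A ^ ((k0 + j + 1) * nn A ρ (k0 + j) * m))).image
            (fun u => fun p : Pl (k0 + j) b => ((lf (r p) (g u) : ℤ) : ZMod p))).card :=
        Nat.floor_le_of_le hb
      obtain ⟨σ, hσ1, hσ2⟩ := exists_sigma _ _ hb'
      exact ⟨σ, fun i => Finset.mem_Icc.1 (hσ1 i), hσ2⟩)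
  obtain ⟨τ, b, hsum⟩ := hent
  obtain ⟨R, hR⟩ : ∃ R : ℝ, R = 3 * c * ρ * L / (2 * (A : ℝ) ^ 2) * (I * B) + C' := ⟨_, rfl⟩
  have hg' : IPath D (fun n => g (τ + n)) := by
    refine ⟨fun x y hxy => ?_, fun n => hg.step (τ + n)⟩
    have := hg.inj hxy
    omega
  have hcard : ∀ k, k0 ≤ k → ∀ b, ρ / 2 * (A : ℝ) ^ k ≤ k * ((Pl k b).card : ℝ) := by
    intro k hk b
    rw [(hPl k hk).2.1 b]
    have h1 := le_nn_mul (A := A) (ρ := ρ) (k := k) (by omega)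
    have h2 := hkρ k hk
    linarith
  have hpP : ∀ k, k0 ≤ k → ∀ b, ∀ p ∈ Pl k b, p.Prime ∧ p % 4 = 1 ∧ A ^ k < p ∧ p ≤ A ^ (k + 1) :=
    fun k hk b p hp => (hPl k hk).2.2 b p hp
  have hmids := hmid D A B I k0 l Nb (ρ / 2) ε (4 * (A : ℝ) ^ 2) R r (fun n => g (τ + n))
    (fun k => Pl k (b (k - k0))) (fun k => Jk e lam k) hg' hA2 hB hk1 hl0 hl4 hNb1
    (by rw [← hk1def, ← hNb]; exact Nat.le_mul_of_pos_right _ (by omega)) hDl
    (fun k hk p hp => by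
      obtain ⟨h1, h2, _, _⟩ := hpP k (Finset.mem_Ico.1 hk).1 _ p hp
      exact ⟨h1, hr p h1 h2⟩)
    (fun k hk p hp => by
      obtain ⟨_, _, h3, h4⟩ := hpP k (Finset.mem_Ico.1 hk).1 _ p hp
      exact ⟨h3, h4⟩)
    (fun k hk => hcard k (Finset.mem_Ico.1 hk).1 _)
    (fun k hk p hp => by
      obtain ⟨h1, h2, _, _⟩ := hpP k (Finset.mem_Ico.1 hk).1 _ p hp
      obtain ⟨x, hx⟩ := hmiss p h1 h2
      exact ⟨x, fun n => hx (τ + n)⟩)
    (fun k _ => hJpos k)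
    (fun k hk => by
      have hk' := (Finset.mem_Ico.1 hk).1
      rw [hJl k hk', ← hLdef]
      have hkr : (1 : ℝ) ≤ k := by exact_mod_cast hk1.trans hk'
      have hAk : (0 : ℝ) < (A : ℝ) ^ k := by positivity
      have h1 := (hlog2 k hk').2
      have h2 : (A : ℝ) * (((k : ℝ) + 1) * L) ≤ 4 * (A : ℝ) ^ 2 * (2 ^ Nat.log 2 k : ℕ) := by
        have h3 : ((k : ℝ) + 1) * L ≤ (2 * k) * A :=
          mul_le_mul (by linarith) hLA' hL0.le (by positivity)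
        have h4 : (2 * (k : ℝ)) * A ≤ (4 * (2 ^ Nat.log 2 k : ℕ)) * A :=
          mul_le_mul_of_nonneg_right (by linarith) hA0.le
        nlinarith
      calc (A : ℝ) ^ (k + 1) * (((k : ℝ) + 1) * L) = (A : ℝ) ^ k * (A * (((k : ℝ) + 1) * L)) := by
            ring
        _ ≤ (A : ℝ) ^ k * (4 * (A : ℝ) ^ 2 * (2 ^ Nat.log 2 k : ℕ)) :=
            mul_le_mul_of_nonneg_left h2 hAk.le
        _ = _ := by ring)
    (fun k hk => by
      have hk' := (Finset.mem_Ico.1 hk).1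
      rw [hJl k hk']
      have h1 := (hlog2 k hk').1
      gcongr)
    (by positivity) (by positivity)
    (by
      rw [← hLdef, hR]
      have e1 : 4 * (A : ℝ) ^ 2 * (3 * c * ρ * L / (2 * (A : ℝ) ^ 2) * (I * B) + C')
          = (24 * B * c) * (ρ * L * I) / 4 + (16 * (A : ℝ) ^ 2 * C') / 4 := by
        field_simp
        ring
      have e2 : ρ / 2 * L * (ε * I) = ε * (ρ * L * I) / 4 + (ρ * L * ε * I) / 4 := by ring
      rw [e1, e2]
      have hI0 : (0 : ℝ) ≤ I := Nat.cast_nonneg _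
      have h1 : (24 * B * c) * (ρ * L * I) ≤ ε * (ρ * L * I) :=
        mul_le_mul_of_nonneg_right hcB (by positivity)
      linarith)
    hI1
    (by
      rw [← hk1def, Finset.sum_Ico_eq_sum_range, ← hK]
      -- the inequality for one level
      have hone : ∀ j ∈ range K,
          1 / (((Jk e lam (k0 + j) : ℕ) : ℝ) * l) * ∑ p ∈ Pl (k0 + j) (b (k0 + j - k0)),
            (Real.log p - Real.log (Zm r (fun n => g (τ + n)) l Nb (Jk e lam (k0 + j)) p))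
          ≤ 1 / (((Jk e lam (k0 + j) : ℕ) : ℝ) * l) * (Real.log (⌊Real.exp ((1 - c) *
              ((nn A ρ (k0 + j) : ℝ) * ((k0 + j : ℕ) * Real.log A)))⌋₊ : ℕ)
            - ∑ p ∈ Pl (k0 + j) (b j),
              Real.log (Zm r (fun n => g (τ + n)) l Nb (Jk e lam (k0 + j)) p)
            - (((j : ℝ) + 1) * Real.log m
              + ∑ i ∈ range j, Real.log ((A ^ ((k0 + i + 1) * nn A ρ (k0 + i)) : ℕ) : ℝ)
              + 2 * Real.log (2 * (D * ∑ i ∈ range j,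
                ((A ^ ((k0 + i + 1) * nn A ρ (k0 + i) * m) : ℕ) : ℝ)) + 1)
              + (Jk e lam (k0 + j) : ℕ) * (2 * Real.log (2 * (D * (Nb * l)) + 1))))
            + 3 * c * ρ * L / (2 * (A : ℝ) ^ 2) * (1 / ((k0 + j : ℕ) : ℝ))
            + 1 / l * (2 * Real.log (2 * (D * (Nb * l)) + 1)) := by
        intro j _
        have hkk : k0 ≤ k0 + j := by omega
        have hn := hnum k0 (by omega) j
        rw [show k0 + j - k0 = j by omega]
        obtain ⟨k, hkdef⟩ : ∃ k : ℕ, k = k0 + j := ⟨_, rfl⟩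
        rw [← hkdef] at hn hkk ⊢
        have hkpos : (0 : ℝ) < k := by exact_mod_cast (by omega : 0 < k)
        obtain ⟨w, hw⟩ : ∃ w : ℝ, w = 1 / (((Jk e lam k : ℕ) : ℝ) * l) := ⟨_, rfl⟩
        have hJ0 : (0 : ℝ) < ((Jk e lam k : ℕ) : ℝ) := by exact_mod_cast hJpos k
        have hl0' : (0 : ℝ) < l := by exact_mod_cast hl0
        have hw0 : 0 < w := by rw [hw]; positivity
        have hwJ : w * ((Jk e lam k : ℕ) : ℝ) = 1 / l := by rw [hw]; field_simp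
        -- `w y_k` is small
        have hwy : w * (3 * c * ((nn A ρ k : ℝ) * (k * Real.log A)))
            ≤ 3 * c * ρ * L / (2 * (A : ℝ) ^ 2) * (1 / (k : ℝ)) := by
          rw [hw, hJl k hkk, ← hLdef]
          have h1 := nn_mul_le (A := A) hρ.le (k := k) (by omega)
          have h2 := (hlog2 k hkk).2
          have hT : (0 : ℝ) < ((2 ^ Nat.log 2 k : ℕ) : ℝ) := by positivity
          have hAk : (0 : ℝ) < (A : ℝ) ^ k := by positivity
          rw [one_div, inv_mul_le_iff₀ (by positivity)]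
          calc 3 * c * ((nn A ρ k : ℝ) * (k * L)) = 3 * c * L * ((nn A ρ k : ℝ) * k) := by ring
            _ ≤ 3 * c * L * (ρ * (A : ℝ) ^ k) := mul_le_mul_of_nonneg_left h1 (by positivity)
            _ ≤ 3 * c * L * (ρ * (A : ℝ) ^ k) * (2 * (2 ^ Nat.log 2 k : ℕ) / k) := by
                have h3 : 1 ≤ 2 * ((2 ^ Nat.log 2 k : ℕ) : ℝ) / k := by
                  rw [le_div_iff₀ hkpos]; linarith
                exact le_mul_of_one_le_right (by positivity) h3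
            _ = 4 * (A : ℝ) ^ 2 * ((A : ℝ) ^ k * (2 ^ Nat.log 2 k : ℕ)) *
                (3 * c * ρ * L / (2 * (A : ℝ) ^ 2) * (1 / (k : ℝ))) := by
                field_simp
                norm_num
        -- the logarithms of the primes
        have hlogp : ∑ p ∈ Pl k (b j), Real.log p ≤ (nn A ρ k : ℝ) * ((k : ℝ) + 1) * Real.log A := by
          rw [← (hPl k hkk).2.1 (b j)]
          calc ∑ p ∈ Pl k (b j), Real.log p ≤ ∑ p ∈ Pl k (b j), ((k : ℝ) + 1) * Real.log A := by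
                refine Finset.sum_le_sum (fun p hp => ?_)
                obtain ⟨h3, _, _, h4⟩ := hpP k hkk _ p hp
                have h5 : (p : ℝ) ≤ (A : ℝ) ^ (k + 1) := by exact_mod_cast h4
                have h6 : (0 : ℝ) < p := by exact_mod_cast h3.pos
                have h7 := Real.log_le_log h6 h5
                rw [Real.log_pow] at h7
                push_cast at h7
                exact h7
            _ = _ := by rw [Finset.sum_const, nsmul_eq_mul]; ring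
        rw [Finset.sum_sub_distrib, ← hw]
        have hfin := mul_le_mul_of_nonneg_left (hlogp.trans (sub_le_iff_le_add.1 hn)) hw0.le
        have e1 : w * (((Jk e lam k : ℕ) : ℝ) * (2 * Real.log (2 * (D * (Nb * l)) + 1)))
            = 1 / l * (2 * Real.log (2 * (D * (Nb * l)) + 1)) := by
          rw [← mul_assoc, hwJ]
        linarith only [hfin, e1, hwy]
      refine (Finset.sum_le_sum hone).trans ?_
      rw [Finset.sum_add_distrib, Finset.sum_add_distrib]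
      have h2 : ∑ j ∈ range K, 3 * c * ρ * L / (2 * (A : ℝ) ^ 2) * (1 / ((k0 + j : ℕ) : ℝ))
          ≤ 3 * c * ρ * L / (2 * (A : ℝ) ^ 2) * (I * B) := by
        rw [← Finset.mul_sum]
        refine mul_le_mul_of_nonneg_left ?_ (by positivity)
        have h3 := sum_inv_le k0 B I hk1 (by omega)
        rw [← hk1def, Finset.sum_Ico_eq_sum_range, ← hK] at h3
        exact h3
      have h3 : ∑ j ∈ range K, 1 / (l : ℝ) * (2 * Real.log (2 * (D * (Nb * l)) + 1)) ≤ 1 := by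
        rw [Finset.sum_const, Finset.card_range, nsmul_eq_mul, hNb]
        exact ld_bound D A k1 l K hA2 hk11 hl1 hl2 (by omega) (hkL.trans (by exact_mod_cast hk01))
      rw [hR, hC']
      linarith only [hsum, h2, h3])
  obtain ⟨i, _, q, β, hwin⟩ := hmids
  exact ⟨k0 * B ^ i, by
    have : k0 ≤ k0 * B ^ i := Nat.le_mul_of_pos_right _ (Nat.one_le_pow _ _ (by omega))
    omega, l, Nb, τ, _, q, β, hwin⟩

end Vale.Agent.P015.H416
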