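import Vale.Agent.P015.R2.H222.Freq

/-!
# P015: the soft window (interface between the entropy half and the Fourier half)

Output of MIDDLE = (I)+(II)+(III), input of LOC (IV.1) and of everything after it.
Points are `ℤ × ℤ`, `lf s w = w.1 + s * w.2`, `Rts r P`: `p` prime and `p ∣ r p ^ 2 + 1`
(`r` may be constant).
-/

namespace Vale.Agent.P015.H416

open Finset Vale.Agent.P015.H222

/-- `g` is an injective path with steps `≤ D` in the sup norm -/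
structure IPath (D : ℕ) (g : ℕ → ℤ × ℤ) : Prop where
  inj : Function.Injective g
  step : ∀ n, |(g (n + 1)).1 - (g n).1| ≤ D ∧ |(g (n + 1)).2 - (g n).2| ≤ D

/-- the weight of the point `w` for the law `q p` on the residues -/
def qa (r : ℕ → ℤ) (q : ∀ p : ℕ, ZMod p → ℝ) (p : ℕ) (w : ℤ × ℤ) : ℝ :=
  q p ((lf (r p) w : ℤ) : ZMod p)

/-- relative mass of the `j`-th block (`l` consecutive points) of `g` for the law `q p` -/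
noncomputable def rel (r : ℕ → ℤ) (q : ∀ p : ℕ, ZMod p → ℝ) (g : ℕ → ℤ × ℤ) (l p j : ℕ) : ℝ :=
  (p : ℝ) / l * ∑ i ∈ range l, qa r q p (g (j * l + i))

/-- average over a finset -/
noncomputable def av (P : Finset ℕ) (f : ℕ → ℝ) : ℝ := (∑ p ∈ P, f p) / P.card

/-- A soft window: the path `g` (already shifted), blocks `j < Nb` of `l` points, levels
`k ∈ [k0, B k0)` of primes in `(A ^ k, A ^ (k + 1)]`, laws `q p` on the residues mod `p` with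
`p q_p(c) ≤ p ^ β_p`, `β_p` small on average and relative masses of the blocks small on average
(averages over levels with weight `1 / k`, over the primes of one level and over the blocks). -/
structure SoftWin (A B : ℕ) (ρ ε : ℝ) (r : ℕ → ℤ) (k0 l Nb : ℕ) (g : ℕ → ℤ × ℤ)
    (P : ℕ → Finset ℕ) (q : ∀ p : ℕ, ZMod p → ℝ) (β : ℕ → ℝ) : Prop where
  l_pos : 1 ≤ l
  l_le : l ≤ k0 ^ 4
  long : A ^ (3 * B * k0) ≤ Nb * l
  rts : ∀ k ∈ Ico k0 (B * k0), Rts r (P k)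
  rng : ∀ k ∈ Ico k0 (B * k0), ∀ p ∈ P k, A ^ k < p ∧ p ≤ A ^ (k + 1)
  many : ∀ k ∈ Ico k0 (B * k0), ρ * (A : ℝ) ^ k ≤ k * (P k).card
  nonneg : ∀ k ∈ Ico k0 (B * k0), ∀ p ∈ P k, ∀ c : ZMod p, 0 ≤ q p c
  one : ∀ k ∈ Ico k0 (B * k0), ∀ p ∈ P k, ∑ c ∈ range p, q p (c : ZMod p) = 1
  beta : ∀ k ∈ Ico k0 (B * k0), ∀ p ∈ P k, 0 ≤ β p ∧ β p ≤ 1
  sup : ∀ k ∈ Ico k0 (B * k0), ∀ p ∈ P k, ∀ c : ZMod p, (p : ℝ) * q p c ≤ (p : ℝ) ^ β p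
  avbeta : ∑ k ∈ Ico k0 (B * k0), 1 / (k : ℝ) * av (P k) β ≤ ε
  avrel : ∑ j ∈ range Nb, ∑ k ∈ Ico k0 (B * k0), 1 / (k : ℝ) *
    av (P k) (fun p => rel r q g l p j) ≤ ε * Nb

/-- Output of the entropy half: every infinite path that misses a residue class modulo every
prime `p ≡ 1 mod 4` (through the root `r p`) has soft windows, for all `B`, `ε`, starting at
arbitrarily high levels. -/
def Spec_MIDDLE : Prop :=
  ∀ (D : ℕ) (g : ℕ → ℤ × ℤ) (r : ℕ → ℤ), IPath D g →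
    (∀ p : ℕ, p.Prime → p % 4 = 1 → (p : ℤ) ∣ r p ^ 2 + 1) →
    (∀ p : ℕ, p.Prime → p % 4 = 1 → ∃ a : ZMod p, ∀ n, ((lf (r p) (g n) : ℤ) : ZMod p) ≠ a) →
    ∀ (B : ℕ) (ε : ℝ), 2 ≤ B → 0 < ε → ∃ (A : ℕ) (ρ : ℝ), 2 ≤ A ∧ 0 < ρ ∧
      ∀ K0 : ℕ, ∃ k0 ≥ K0, ∃ (l Nb τ : ℕ) (P : ℕ → Finset ℕ) (q : ∀ p : ℕ, ZMod p → ℝ) (β : ℕ → ℝ),
        SoftWin A B ρ ε r k0 l Nb (fun n => g (τ + n)) P q β

/-- The deterministic (Fourier) half: soft windows do not exist for suitable absolute `B`, `ε`. -/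
def Spec_NOWIN : Prop :=
  ∃ (B : ℕ) (ε : ℝ), 2 ≤ B ∧ 0 < ε ∧ ∀ (D A : ℕ) (ρ : ℝ), 2 ≤ A → 0 < ρ → ∃ K0 : ℕ,
    ∀ k0 ≥ K0, ∀ (r : ℕ → ℤ) (l Nb : ℕ) (g : ℕ → ℤ × ℤ) (P : ℕ → Finset ℕ)
      (q : ∀ p : ℕ, ZMod p → ℝ) (β : ℕ → ℝ), IPath D g →
      SoftWin A B ρ ε r k0 l Nb g P q β → False

/-- The two halves together. -/
theorem no_path (h1 : Spec_MIDDLE) (h2 : Spec_NOWIN) (D : ℕ) (g : ℕ → ℤ × ℤ) (r : ℕ → ℤ)
    (hg : IPath D g) (hr : ∀ p : ℕ, p.Prime → p % 4 = 1 → (p : ℤ) ∣ r p ^ 2 + 1)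
    (ha : ∀ p : ℕ, p.Prime → p % 4 = 1 →
      ∃ a : ZMod p, ∀ n, ((lf (r p) (g n) : ℤ) : ZMod p) ≠ a) : False := by
  obtain ⟨B, ε, hB, hε, h3⟩ := h2
  obtain ⟨A, ρ, hA, hρ, h4⟩ := h1 D g r hg hr ha B ε hB hε
  obtain ⟨K0, h5⟩ := h3 D A ρ hA hρ
  obtain ⟨k0, hk0, l, Nb, τ, P, q, β, hw⟩ := h4 K0
  refine h5 k0 hk0 r l Nb (fun n => g (τ + n)) P q β ⟨?_, ?_⟩ hw
  · intro m n hmn
    have := hg.inj hmn
    omega
  · intro n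
    exact hg.step (τ + n)

end Vale.Agent.P015.H416
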