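import Vale.Agent.P015.H416.SoftWin

/-!
# P015: specifications of the inputs of MIDDLE
-/

namespace Vale.Agent.P015.H416

open Finset Vale.Agent.P015.H222

/-- fraction of the blocks `j < Nb` of `g` (`l` consecutive points) that hit the class `c` mod `p` -/
noncomputable def mu (r : ℕ → ℤ) (g : ℕ → ℤ × ℤ) (l Nb p : ℕ) (c : ZMod p) : ℝ :=
  by classical exact
  (((range Nb).filter (fun j => ∃ i ∈ range l, ((lf (r p) (g (j * l + i)) : ℤ) : ZMod p) = c)).card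
    : ℝ) / Nb

/-- the partition function `Z = ∑_c exp (-J μ(c))` -/
noncomputable def Zm (r : ℕ → ℤ) (g : ℕ → ℤ × ℤ) (l Nb J p : ℕ) : ℝ :=
  ∑ c ∈ range p, Real.exp (-(J * mu r g l Nb p (c : ZMod p)))

/-- ENT = DESC + DECR + MISS: all the entropy of (II), (III), (IV.0) with the uniform block law. -/
def Spec_ENT : Prop :=
  ∀ (D : ℕ) (g : ℕ → ℤ × ℤ) (r : ℕ → ℤ), IPath D g →
    ∀ (K l Nb : ℕ), 1 ≤ l → 1 ≤ Nb →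
    ∀ (m : ℕ) (P : ℕ → Fin m → Finset ℕ), 1 ≤ m →
    (∀ k < K, ∀ b, ∀ p ∈ P k b, p.Prime) →
    (∀ k < K, ∀ b, ∀ p ∈ P k b, ∃ a : ZMod p, ∀ n, ((lf (r p) (g n) : ℤ) : ZMod p) ≠ a) →
    ∀ (s W C J : ℕ → ℕ), (∀ k < K, 1 ≤ s k) → (∀ k < K, ∀ b, ∏ p ∈ P k b, p ≤ C k) →
    (∀ k < K, 1 ≤ J k) → (∀ k, k + 1 < K → J k ∣ J (k + 1)) →
    (∀ k < K, ∀ t, ∃ b, ∃ σ : Fin (s k) → ℕ, (∀ i, t ≤ σ i ∧ σ i ≤ t + W k) ∧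
      Function.Injective (fun i => fun p : P k b => ((lf (r p) (g (σ i)) : ℤ) : ZMod p))) →
    ∃ (τ : ℕ) (b : ℕ → Fin m),
      ∑ k ∈ range K, 1 / ((J k : ℝ) * l) * (Real.log (s k)
        - ∑ p ∈ P k (b k), Real.log (Zm r (fun n => g (τ + n)) l Nb (J k) p)
        - ((k + 1) * Real.log m + ∑ j ∈ range k, Real.log (C j)
          + 2 * Real.log (2 * (D * ∑ j ∈ range k, (W j : ℝ)) + 1)
          + J k * (2 * Real.log (2 * (D * (Nb * l)) + 1))))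
      ≤ 2 * Real.log (2 * D + 1)

/-- FAT LEAF in the form used by MIDDLE: `m` leaves of `n` primes each in `(A ^ k, A ^ (k + 1)]`;
windows of `A ^ ((k + 1) * n * m)` steps. -/
def Spec_FATP : Prop :=
  ∀ (D : ℕ) (c : ℝ), 0 < c → c < 1 → ∃ m : ℕ, 1 ≤ m ∧ ∀ A : ℕ, 2 ≤ A → ∃ N0 : ℕ,
    ∀ (k n : ℕ), N0 ≤ k → N0 ≤ n → ∀ (r : ℕ → ℤ) (g : ℕ → ℤ × ℤ), IPath D g →
    ∀ P : Fin m → Finset ℕ, (∀ b b', b ≠ b' → Disjoint (P b) (P b')) → (∀ b, (P b).card = n) →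
    (∀ b, ∀ p ∈ P b, p.Prime ∧ A ^ k < p ∧ p ≤ A ^ (k + 1) ∧ (p : ℤ) ∣ r p ^ 2 + 1) →
    ∀ t : ℕ, ∃ b, Real.exp ((1 - c) * (n * (k * Real.log A))) ≤
      (((Icc t (t + A ^ ((k + 1) * n * m))).image
        (fun u => fun p : P b => ((lf (r p) (g u) : ℤ) : ZMod p))).card : ℝ)

/-- LEVELS in the form used by MIDDLE. -/
def Spec_LEVP : Prop :=
  ∃ A0 : ℕ, ∀ A : ℕ, A0 ≤ A → ∀ m : ℕ, 1 ≤ m → ∃ (ρ : ℝ) (N0 : ℕ), 0 < ρ ∧ ∀ k ≥ N0, ∀ n : ℕ,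
    (n : ℝ) * k ≤ ρ * (A : ℝ) ^ k → ∃ P : Fin m → Finset ℕ,
    (∀ b b', b ≠ b' → Disjoint (P b) (P b')) ∧ (∀ b, (P b).card = n) ∧
    ∀ b, ∀ p ∈ P b, p.Prime ∧ p % 4 = 1 ∧ A ^ k < p ∧ p ≤ A ^ (k + 1)

end Vale.Agent.P015.H416
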