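import Vale.Agent.P015.H416.SpecEnt

/-!
# P015, MIDDLE: the laws `q` and the partition functions
-/

namespace Vale.Agent.P015.H416

open Finset Vale.Agent.P015.H222

variable {r : ℕ → ℤ} {g : ℕ → ℤ × ℤ} {l Nb J p : ℕ}

theorem mu_nonneg (c : ZMod p) : 0 ≤ mu r g l Nb p c := by
  classical
  rw [mu]; positivity

/-- the law `q ∝ exp (-J μ)` -/
noncomputable def qJ (r : ℕ → ℤ) (g : ℕ → ℤ × ℤ) (l Nb J p : ℕ) (c : ZMod p) : ℝ :=
  Real.exp (-(J * mu r g l Nb p c)) / Zm r g l Nb J p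

/-- the exponent `β = 1 - log Z / log p` -/
noncomputable def be (r : ℕ → ℤ) (g : ℕ → ℤ × ℤ) (l Nb J p : ℕ) : ℝ :=
  1 - Real.log (Zm r g l Nb J p) / Real.log p

theorem Zm_pos (hp : 0 < p) : 0 < Zm r g l Nb J p := by
  rw [Zm]
  exact Finset.sum_pos (fun c _ => Real.exp_pos _) ⟨0, Finset.mem_range.2 hp⟩

theorem Zm_le : Zm r g l Nb J p ≤ p := by
  rw [Zm]
  calc ∑ c ∈ range p, Real.exp (-(J * mu r g l Nb p (c : ZMod p)))
      ≤ ∑ c ∈ range p, (1 : ℝ) := by
        refine Finset.sum_le_sum (fun c _ => ?_)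
        rw [Real.exp_le_one_iff]
        have := mu_nonneg (r := r) (g := g) (l := l) (Nb := Nb) (c : ZMod p)
        have h2 : 0 ≤ (J : ℝ) * mu r g l Nb p (c : ZMod p) := mul_nonneg (Nat.cast_nonneg _) this
        linarith
    _ = p := by simp

theorem one_le_Zm (hp : 0 < p) {a : ZMod p}
    (ha : ∀ n, ((lf (r p) (g n) : ℤ) : ZMod p) ≠ a) : 1 ≤ Zm r g l Nb J p := by
  classical
  have : NeZero p := ⟨hp.ne'⟩
  have h1 : mu r g l Nb p ((a.val : ℕ) : ZMod p) = 0 := by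
    rw [ZMod.natCast_zmod_val, mu]
    have : (range Nb).filter (fun j => ∃ i ∈ range l,
        ((lf (r p) (g (j * l + i)) : ℤ) : ZMod p) = a) = ∅ := by
      rw [Finset.filter_eq_empty_iff]
      rintro j _ ⟨i, _, h⟩
      exact ha _ h
    rw [this]; simp
  rw [Zm]
  have h2 := Finset.single_le_sum (s := range p)
    (f := fun c : ℕ => Real.exp (-(J * mu r g l Nb p (c : ZMod p))))
    (fun c _ => (Real.exp_pos _).le) (Finset.mem_range.2 (ZMod.val_lt a))
  simp only [h1, mul_zero, neg_zero, Real.exp_zero] at h2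
  exact h2

theorem qJ_nonneg (hp : 0 < p) (c : ZMod p) : 0 ≤ qJ r g l Nb J p c :=
  div_nonneg (Real.exp_pos _).le (Zm_pos hp).le

theorem sum_qJ (hp : 0 < p) : ∑ c ∈ range p, qJ r g l Nb J p (c : ZMod p) = 1 := by
  simp only [qJ]
  rw [← Finset.sum_div, ← Zm, div_self (Zm_pos hp).ne']

theorem be_mem (hp : 1 < p) {a : ZMod p}
    (ha : ∀ n, ((lf (r p) (g n) : ℤ) : ZMod p) ≠ a) :
    0 ≤ be r g l Nb J p ∧ be r g l Nb J p ≤ 1 := by
  have hlp : 0 < Real.log p := Real.log_pos (by exact_mod_cast hp)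
  have h1 : 0 ≤ Real.log (Zm r g l Nb J p) := Real.log_nonneg (one_le_Zm (by omega) ha)
  have h2 : Real.log (Zm r g l Nb J p) ≤ Real.log p :=
    Real.log_le_log (Zm_pos (by omega)) (Zm_le)
  constructor
  · rw [be, sub_nonneg]; exact (div_le_one hlp).2 h2
  · rw [be]; have := div_nonneg h1 hlp.le; linarith

theorem qJ_sup (hp : 1 < p) (c : ZMod p) :
    (p : ℝ) * qJ r g l Nb J p c ≤ (p : ℝ) ^ be r g l Nb J p := by
  have hlp : 0 < Real.log p := Real.log_pos (by exact_mod_cast hp)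
  have hp0 : (0 : ℝ) < p := by exact_mod_cast (by omega : 0 < p)
  have hZ := Zm_pos (r := r) (g := g) (l := l) (Nb := Nb) (J := J) (show 0 < p by omega)
  have h1 : (p : ℝ) ^ be r g l Nb J p = p / Zm r g l Nb J p := by
    rw [Real.rpow_def_of_pos hp0, be, mul_sub, mul_one, mul_div_cancel₀ _ hlp.ne', Real.exp_sub,
      Real.exp_log hp0, Real.exp_log hZ]
  rw [h1, qJ, mul_div_assoc']
  refine div_le_div_of_nonneg_right ?_ hZ.le
  have : Real.exp (-(J * mu r g l Nb p c)) ≤ 1 := by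
    rw [Real.exp_le_one_iff]
    have h2 : 0 ≤ (J : ℝ) * mu r g l Nb p c := mul_nonneg (Nat.cast_nonneg _) (mu_nonneg _)
    linarith
  nlinarith

/-- the average mass of the blocks -/
theorem energy (hp : 0 < p) :
    (J : ℝ) * ∑ c ∈ range p, qJ r g l Nb J p (c : ZMod p) * mu r g l Nb p (c : ZMod p)
      ≤ Real.log p - Real.log (Zm r g l Nb J p) := by
  have hZ := Zm_pos (r := r) (g := g) (l := l) (Nb := Nb) (J := J) hp
  have hp0 : (0 : ℝ) < p := by exact_mod_cast hp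
  have hq : ∀ c : ℕ, 0 < qJ r g l Nb J p (c : ZMod p) := fun c =>
    div_pos (Real.exp_pos _) hZ
  have h1 : ∀ c : ℕ, (J : ℝ) * (qJ r g l Nb J p (c : ZMod p) * mu r g l Nb p (c : ZMod p))
      = qJ r g l Nb J p (c : ZMod p) * (-Real.log (qJ r g l Nb J p (c : ZMod p)))
        - qJ r g l Nb J p (c : ZMod p) * Real.log (Zm r g l Nb J p) := by
    intro c
    have h2 : Real.log (qJ r g l Nb J p (c : ZMod p))
        = -(J * mu r g l Nb p (c : ZMod p)) - Real.log (Zm r g l Nb J p) := by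
      rw [qJ, Real.log_div (Real.exp_pos _).ne' hZ.ne', Real.log_exp]
    rw [h2]; ring
  rw [Finset.mul_sum, Finset.sum_congr rfl (fun c _ => h1 c), Finset.sum_sub_distrib,
    ← Finset.sum_mul, sum_qJ hp, one_mul]
  have h3 : ∑ c ∈ range p, qJ r g l Nb J p (c : ZMod p) * (-Real.log (qJ r g l Nb J p (c : ZMod p)))
      ≤ Real.log p := by
    have h4 : ∀ c : ℕ, qJ r g l Nb J p (c : ZMod p) * (-Real.log (qJ r g l Nb J p (c : ZMod p)))
        ≤ 1 / p - qJ r g l Nb J p (c : ZMod p)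
          + qJ r g l Nb J p (c : ZMod p) * Real.log p := by
      intro c
      have h5 := Real.log_le_sub_one_of_pos (show 0 < 1 / (p * qJ r g l Nb J p (c : ZMod p)) from
        div_pos one_pos (mul_pos hp0 (hq c)))
      rw [Real.log_div one_ne_zero (mul_pos hp0 (hq c)).ne', Real.log_one,
        Real.log_mul hp0.ne' (hq c).ne'] at h5
      have h6 := mul_le_mul_of_nonneg_left h5 (hq c).le
      have h7 : qJ r g l Nb J p (c : ZMod p) * (1 / (p * qJ r g l Nb J p (c : ZMod p)) - 1)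
          = 1 / p - qJ r g l Nb J p (c : ZMod p) := by
        have := (hq c).ne'
        field_simp
      rw [h7] at h6
      linarith
    refine (Finset.sum_le_sum (fun c _ => h4 c)).trans ?_
    rw [Finset.sum_add_distrib, Finset.sum_sub_distrib, ← Finset.sum_mul, sum_qJ hp]
    simp [hp0.ne']
  linarith

/-- total mass of the blocks whose points are distinct mod `p` -/
theorem sum_blocks (hp : 0 < p) (hNb : 0 < Nb)
    (hinj : ∀ j < Nb, ∀ i < l, ∀ i' < l, ((lf (r p) (g (j * l + i)) : ℤ) : ZMod p)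
      = ((lf (r p) (g (j * l + i')) : ℤ) : ZMod p) → i = i') (φ : ZMod p → ℝ) (hφ : ∀ c, 0 ≤ φ c) :
    ∑ j ∈ range Nb, ∑ i ∈ range l, φ ((lf (r p) (g (j * l + i)) : ℤ) : ZMod p)
      ≤ Nb * ∑ c ∈ range p, φ (c : ZMod p) * mu r g l Nb p (c : ZMod p) := by
  classical
  have : NeZero p := ⟨hp.ne'⟩
  have hN : (0 : ℝ) < Nb := by exact_mod_cast hNb
  -- sum over range p as a sum over ZMod p
  have hsum : ∀ ψ : ZMod p → ℝ, ∑ c ∈ range p, ψ (c : ZMod p) = ∑ c : ZMod p, ψ c := by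
    intro ψ
    refine Finset.sum_bij' (fun c _ => (c : ZMod p)) (fun c _ => c.val) (by simp)
      (fun c _ => Finset.mem_range.2 (ZMod.val_lt c)) ?_ ?_ ?_
    · intro c hc
      exact ZMod.val_cast_of_lt (Finset.mem_range.1 hc)
    · intro c _
      exact ZMod.natCast_zmod_val c
    · intro c _; rfl
  rw [hsum (fun c => φ c * mu r g l Nb p c), Finset.mul_sum]
  have h1 : ∀ c : ZMod p, (Nb : ℝ) * (φ c * mu r g l Nb p c)
      = ∑ j ∈ range Nb, if (∃ i ∈ range l, ((lf (r p) (g (j * l + i)) : ℤ) : ZMod p) = c)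
          then φ c else 0 := by
    intro c
    rw [mu, ← Finset.sum_filter, Finset.sum_const, nsmul_eq_mul]
    field_simp
  rw [Finset.sum_congr rfl (fun c _ => h1 c)]
  conv_rhs => rw [Finset.sum_comm]
  refine Finset.sum_le_sum (fun j hj => ?_)
  rw [← Finset.sum_filter]
  have h2 : ∑ i ∈ range l, φ ((lf (r p) (g (j * l + i)) : ℤ) : ZMod p)
      = ∑ c ∈ (range l).image (fun i => ((lf (r p) (g (j * l + i)) : ℤ) : ZMod p)), φ c := by
    rw [Finset.sum_image]
    intro i hi i' hi' h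
    exact hinj j (Finset.mem_range.1 hj) i (Finset.mem_range.1 hi) i' (Finset.mem_range.1 hi') h
  rw [h2]
  refine Finset.sum_le_sum_of_subset_of_nonneg ?_ (fun c _ _ => hφ c)
  intro c hc
  obtain ⟨i, hi, rfl⟩ := Finset.mem_image.1 hc
  exact Finset.mem_filter.2 ⟨Finset.mem_univ _, i, hi, rfl⟩

/-- the sum over the blocks of the relative masses of the law `qJ` -/
theorem sum_rel (hp : 0 < p) (hNb : 0 < Nb) (hl : 0 < l) (hJ : 0 < J)
    (hinj : ∀ j < Nb, ∀ i < l, ∀ i' < l, ((lf (r p) (g (j * l + i)) : ℤ) : ZMod p)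
      = ((lf (r p) (g (j * l + i')) : ℤ) : ZMod p) → i = i')
    {q : ∀ p : ℕ, ZMod p → ℝ} (hq : q p = qJ r g l Nb J p) :
    ∑ j ∈ range Nb, rel r q g l p j ≤
      Nb * (p * (1 / ((J : ℝ) * l) * (Real.log p - Real.log (Zm r g l Nb J p)))) := by
  have hp0 : (0 : ℝ) < p := by exact_mod_cast hp
  have hl0 : (0 : ℝ) < l := by exact_mod_cast hl
  have hJ0 : (0 : ℝ) < J := by exact_mod_cast hJ
  have h1 := sum_blocks hp hNb hinj (qJ r g l Nb J p) (qJ_nonneg hp)
  have h2 := energy (r := r) (g := g) (l := l) (Nb := Nb) (J := J) hp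
  have h3 : ∑ j ∈ range Nb, rel r q g l p j = (p : ℝ) / l * ∑ j ∈ range Nb, ∑ i ∈ range l,
      qJ r g l Nb J p ((lf (r p) (g (j * l + i)) : ℤ) : ZMod p) := by
    rw [Finset.mul_sum]
    refine Finset.sum_congr rfl (fun j _ => ?_)
    rw [rel]
    simp only [qa, hq]
  rw [h3]
  have h4 : ∑ c ∈ range p, qJ r g l Nb J p (c : ZMod p) * mu r g l Nb p (c : ZMod p)
      ≤ (Real.log p - Real.log (Zm r g l Nb J p)) / J := by
    rw [le_div_iff₀ hJ0]; linarith
  calc (p : ℝ) / l * ∑ j ∈ range Nb, ∑ i ∈ range l,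
        qJ r g l Nb J p ((lf (r p) (g (j * l + i)) : ℤ) : ZMod p)
      ≤ (p : ℝ) / l * (Nb * ((Real.log p - Real.log (Zm r g l Nb J p)) / J)) := by
        refine mul_le_mul_of_nonneg_left (h1.trans ?_) (by positivity)
        exact mul_le_mul_of_nonneg_left h4 (by positivity)
    _ = _ := by field_simp

end Vale.Agent.P015.H416
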